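import Vale.Agent.P032.H653.Top

/-!
# P032: a closed connected set of points with the colour `i` fills its inside (wild frame `Irr U T`)

* `near_or_far_T` : a connected set of points with the colour `i` is in the closed unit disc of a point with the
  colour `i` or misses its interior.
* `fill` : if `C` is closed and connected, all its points have the colour `i`, and `x` lies outside `C` in a bounded
  component of its complement, then `x ∈ U i`; so `T x = {i}` and `x` has no partner with the colour `i`.
-/

open Set Filter Topology Metric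

noncomputable section

namespace Vale.Agent.P032.H653

open Vale.Agent.P032.Six

variable {k : ℕ} {U : Fin k → Set ℂ} {T : ℂ → Set (Fin k)}

theorem near_or_far_T (h : Irr U T) {C : Set ℂ} (hC : IsPreconnected C) {i : Fin k} (hi : ∀ x ∈ C, i ∈ T x) {t : ℂ}
    (ht : t ∈ closure (U i)) : (∀ p ∈ C, dist p t ≤ 1) ∨ ∀ p ∈ C, 1 ≤ dist p t := by
  by_contra hcon
  push Not at hcon
  obtain ⟨⟨q, hq, hq1⟩, p, hp, hp1⟩ := hcon
  exact h.mx.wlemma hC (fun x hx => h.sub x (hi x hx)) hp hq hp1 hq1 ht

/-- **a closed connected set with the colour `i` fills its inside** -/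
theorem fill (h : Irr U T) {i : Fin k} {C : Set ℂ} (hC : IsPreconnected C) (hCc : IsClosed C)
    (hi : ∀ x ∈ C, i ∈ T x) {x : ℂ} (hx : x ∉ C) (hb : Bornology.IsBounded (connectedComponentIn Cᶜ x)) :
    x ∈ U i := by
  -- `C` is nonempty
  have hne : C.Nonempty := by
    by_contra h1
    rw [not_nonempty_iff_eq_empty] at h1
    subst h1
    rw [compl_empty, connectedComponentIn_univ, PreconnectedSpace.connectedComponent_eq_univ] at hb
    exact (NoncompactSpace.noncompact_univ (X := ℂ)) (isCompact_of_isClosed_isBounded isClosed_univ hb)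
  obtain ⟨p, hp⟩ := hne
  -- an unbounded connected set outside `C` misses the component
  have far : ∀ (E : Set ℂ), IsPreconnected E → E ⊆ Cᶜ → (∀ r : ℝ, ∃ q ∈ E, r < dist q p) → x ∉ E := by
    intro E hE hEC hEb hxE
    have h1 : E ⊆ connectedComponentIn Cᶜ x := hE.subset_connectedComponentIn hxE hEC
    obtain ⟨r, hr⟩ := hb.subset_closedBall p
    obtain ⟨q, hq, hq1⟩ := hEb r
    exact absurd (hr (h1 hq)) (by rw [mem_closedBall]; linarith)
  have big : ∀ (c : ℂ) (r : ℝ), ∃ q : ℂ, 1 < dist q c ∧ r < dist q p := by
    intro c r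
    set s : ℝ := |r| + dist c p + 2 with hs
    have h0 : 0 ≤ |r| := abs_nonneg r
    have h00 : 0 ≤ dist c p := dist_nonneg
    have h1 : dist (c + (s : ℂ)) c = s := by
      rw [dist_eq_norm, add_sub_cancel_left, Complex.norm_real, Real.norm_eq_abs, abs_of_pos (by linarith)]
    refine ⟨c + (s : ℂ), by rw [h1]; linarith, ?_⟩
    have h2 := dist_triangle (c + (s : ℂ)) p c
    rw [h1, dist_comm p c] at h2
    have := le_abs_self r
    linarith
  obtain ⟨ε, hε, hεC⟩ := Metric.isOpen_iff.1 hCc.isOpen_compl x hx
  refine h.max i x fun y hy hxy => ?_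
  rcases near_or_far_T h hC hi hy with h1 | h1
  · -- near
    have e1 : IsPreconnected (closedBall y 1)ᶜ := Vale.Agent.P153.R2.R1.preconnected_compl_closedBall y 1
    have e2 : IsPreconnected ((closedBall y 1)ᶜ ∪ {x}) := by
      refine e1.subset_closure subset_union_left (union_subset subset_closure ?_)
      rw [singleton_subset_iff, _root_.mem_closure_iff]
      intro O hO hxO
      obtain ⟨δ, hδ, hδO⟩ := Metric.isOpen_iff.1 hO x hxO
      refine ⟨x + ((δ / 2 : ℝ) : ℂ) * (x - y), hδO ?_, ?_⟩
      · rw [mem_ball, dist_eq_norm, add_sub_cancel_left, norm_mul, ← dist_eq_norm, hxy, mul_one,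
          Complex.norm_real, Real.norm_eq_abs, abs_of_pos (by linarith)]
        linarith
      · rw [mem_compl_iff, mem_closedBall, not_le, dist_eq_norm]
        have : x + ((δ / 2 : ℝ) : ℂ) * (x - y) - y = ((1 + δ / 2 : ℝ) : ℂ) * (x - y) := by
          push_cast; ring
        rw [this, norm_mul, ← dist_eq_norm, hxy, mul_one, Complex.norm_real, Real.norm_eq_abs,
          abs_of_pos (by linarith)]
        linarith
    refine far _ e2 (union_subset (fun q hq hqC => hq (h1 q hqC)) (singleton_subset_iff.2 hx)) (fun r => ?_)
      (Or.inr rfl)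
    obtain ⟨q, hq, hq1⟩ := big y r
    exact ⟨q, Or.inl (by rw [mem_compl_iff, mem_closedBall, not_le]; exact hq), hq1⟩
  · -- far
    have hxcl : x ∈ closure (ball y 1) := by
      rw [closure_ball y one_ne_zero, mem_closedBall, hxy]
    have e2 : IsPreconnected (ball y 1 ∪ {x}) :=
      (convex_ball y 1).isPreconnected.subset_closure subset_union_left
        (union_subset subset_closure (singleton_subset_iff.2 hxcl))
    have e3 : ball y 1 ∪ {x} ⊆ connectedComponentIn Cᶜ x := by
      refine e2.subset_connectedComponentIn (Or.inr rfl) (union_subset (fun q hq hqC => ?_)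
        (singleton_subset_iff.2 hx))
      exact absurd (h1 q hqC) (by rw [not_le]; exact hq)
    -- the component lies in the closed disc of `p`
    have e4 : ∀ q ∈ ball y 1, dist q p ≤ 1 := by
      intro q hq
      by_contra hlt
      push Not at hlt
      have e5 : connectedComponentIn Cᶜ x = connectedComponentIn Cᶜ q := connectedComponentIn_eq (e3 (Or.inl hq))
      have e6 : (closedBall p 1)ᶜ ⊆ connectedComponentIn Cᶜ q := by
        refine (Vale.Agent.P153.R2.R1.preconnected_compl_closedBall p 1).subset_connectedComponentIn ?_ ?_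
        · rw [mem_compl_iff, mem_closedBall, not_le]; exact hlt
        · intro t ht htC
          rcases near_or_far_T h hC hi (h.sub p (hi p hp)) with h2 | h2
          · exact ht (h2 t htC)
          · have := h2 p hp
            rw [dist_self] at this
            linarith
      obtain ⟨r, hr⟩ := hb.subset_closedBall p
      obtain ⟨t, ht, ht1⟩ := big p r
      have := hr (by rw [e5]; exact e6 (by rw [mem_compl_iff, mem_closedBall, not_le]; exact ht))
      rw [mem_closedBall] at this
      linarith
    have h2 := h1 p hp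
    have h0 : 0 < ‖y - p‖ := by
      rw [dist_comm, dist_eq_norm] at h2
      linarith
    -- the point of the disc of `y` which is away from `p`
    have h6 : y + ((1 / (2 * ‖y - p‖) : ℝ) : ℂ) * (y - p) ∈ ball y 1 := by
      rw [mem_ball, dist_eq_norm, add_sub_cancel_left, norm_mul, Complex.norm_real, Real.norm_eq_abs,
        abs_of_pos (by positivity)]
      have : 1 / (2 * ‖y - p‖) * ‖y - p‖ = 1 / 2 := by field_simp
      rw [this]; norm_num
    have h7 := e4 _ h6
    have h8 : y + ((1 / (2 * ‖y - p‖) : ℝ) : ℂ) * (y - p) - p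
        = ((1 + 1 / (2 * ‖y - p‖) : ℝ) : ℂ) * (y - p) := by
      push_cast; ring
    rw [dist_eq_norm, h8, norm_mul, Complex.norm_real, Real.norm_eq_abs, abs_of_pos (by positivity)] at h7
    have h9 : (1 + 1 / (2 * ‖y - p‖)) * ‖y - p‖ = ‖y - p‖ + 1 / 2 := by field_simp
    rw [h9] at h7
    rw [dist_comm, dist_eq_norm] at h2
    linarith

end Vale.Agent.P032.H653
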