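import Vale.Agent.P153.R2.R1.Jan

/-!
# Plane topology: the frontier of a bounded simply connected domain is connected
-/

open Set Filter Topology Metric

namespace Vale.Agent.P032.H653

open Vale.Agent.P153.R2.R1

/-- the complement of an open ball of the plane is connected -/
theorem preconnected_compl_ball (c : ℂ) {r : ℝ} (hr : 0 < r) : IsPreconnected (ball c r)ᶜ := by
  have hrank : 1 < Module.rank ℝ ℂ := by
    rw [Complex.rank_real_complex]; norm_num
  have h1 : IsPreconnected (Ici r ×ˢ sphere (0 : ℂ) 1) :=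
    isPreconnected_Ici.prod (isPreconnected_sphere hrank 0 1)
  have h2 := h1.image (fun x : ℝ × ℂ => c + x.1 * x.2) (by fun_prop)
  convert h2 using 1
  ext z
  simp only [mem_compl_iff, mem_ball, not_lt, mem_image, mem_prod, mem_Ici, mem_sphere,
    Prod.exists, dist_zero_right]
  constructor
  · intro hz
    have h0 : 0 < dist z c := lt_of_lt_of_le hr hz
    rw [dist_eq_norm] at h0 hz
    refine ⟨‖z - c‖, (z - c) / ‖z - c‖, ⟨hz, ?_⟩, ?_⟩
    · rw [norm_div, Complex.norm_real, norm_norm, div_self h0.ne']
    · have : (‖z - c‖ : ℂ) ≠ 0 := by exact_mod_cast h0.ne'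
      field_simp
      ring
  · rintro ⟨a, b, ⟨ha, hb⟩, rfl⟩
    rw [dist_eq_norm, add_sub_cancel_left, norm_mul, hb, mul_one, Complex.norm_real,
      Real.norm_eq_abs]
    exact le_trans ha (le_abs_self a)

/-- a connected set which does not meet the frontier of an open set `K` but meets `K` lies in `K` -/
theorem subset_of_frontier {R K : Set ℂ} (hR : IsPreconnected R) (hK : IsOpen K) {v : ℂ} (hvR : v ∈ R)
    (hvK : v ∈ K) (hd : ∀ x ∈ R, x ∉ frontier K) : R ⊆ K := by
  by_contra hcon
  obtain ⟨z, hz, hzK⟩ := not_subset.1 hcon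
  obtain ⟨x, hx, hx1, hx2⟩ := hR K (closure K)ᶜ hK isClosed_closure.isOpen_compl
    (fun x hx => by
      by_cases h1 : x ∈ closure K
      · left
        by_contra h2
        exact hd x hx ⟨h1, by rwa [hK.interior_eq]⟩
      · exact Or.inr h1)
    ⟨v, hvR, hvK⟩ ⟨z, hz, fun h1 => hd z hz ⟨h1, by rwa [hK.interior_eq]⟩⟩
  exact hx2 (subset_closure hx1)

/-- **the frontier of a bounded connected open set with connected complement is connected** -/
theorem preconnected_frontier_of {K : Set ℂ} (hK : IsOpen K) (hKc : IsPreconnected K)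
    (hb : Bornology.IsBounded K) (hc : IsPreconnected Kᶜ) : IsPreconnected (frontier K) := by
  rw [isPreconnected_closed_iff]
  intro A' B' hA' hB' hcov hA hB
  by_contra hcon
  set A := frontier K ∩ A' with hAdef
  set B := frontier K ∩ B' with hBdef
  have hfc : IsCompact (frontier K) := by
    refine Metric.isCompact_of_isClosed_isBounded isClosed_frontier ?_
    exact hb.closure.subset frontier_subset_closure
  have hAc : IsCompact A := hfc.inter_right hA'
  have hBc : IsCompact B := hfc.inter_right hB'
  have hAB : A ∩ B = ∅ := by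
    by_contra h1
    obtain ⟨x, hx⟩ := nonempty_iff_ne_empty.2 h1
    exact hcon ⟨x, hx.1.1, hx.1.2, hx.2.2⟩
  have hun : A ∪ B = frontier K := by
    rw [hAdef, hBdef, ← inter_union_distrib_left]
    exact inter_eq_left.2 hcov
  obtain ⟨x0, hx0⟩ := hA
  have hKne : K.Nonempty := by
    rw [nonempty_iff_ne_empty]
    rintro rfl
    have h1 : x0 ∈ frontier (∅ : Set ℂ) := hx0.1
    rw [frontier_empty] at h1
    exact h1
  obtain ⟨p, hp⟩ := hKne
  have hKf : ∀ x ∈ K, x ∉ frontier K := fun x hx h1 => h1.2 (by rwa [hK.interior_eq])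
  have hfK : ∀ x ∈ frontier K, x ∉ K := fun x hx h1 => hKf x h1 hx
  -- the components
  set CA := connectedComponentIn Aᶜ p with hCA
  set CB := connectedComponentIn Bᶜ p with hCB
  have hpA : p ∈ Aᶜ := fun h1 => hKf p hp h1.1
  have hpB : p ∈ Bᶜ := fun h1 => hKf p hp h1.1
  have key : ∀ A B : Set ℂ, A ∩ B = ∅ → B ⊆ frontier K → A ⊆ frontier K → B ⊆ connectedComponentIn Aᶜ p := by
    intro A B hAB hBf hAf
    have h1 : IsPreconnected (K ∪ B) := hKc.subset_closure subset_union_left
      (union_subset subset_closure (hBf.trans frontier_subset_closure))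
    refine subset_union_right.trans (h1.subset_connectedComponentIn (Or.inl hp) ?_)
    rintro x (hx | hx) hxA
    · exact hKf x hx (hAf hxA)
    · have : x ∈ A ∩ B := ⟨hxA, hx⟩
      rw [hAB] at this
      exact this
  have hBA : B ⊆ CA := key A B hAB inter_subset_left inter_subset_left
  have hAB' : A ⊆ CB := key B A (by rw [inter_comm]; exact hAB) inter_subset_left inter_subset_left
  have hCAo : IsOpen CA := hAc.isClosed.isOpen_compl.connectedComponentIn
  have hCBo : IsOpen CB := hBc.isClosed.isOpen_compl.connectedComponentIn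
  have hdis : ∀ q, q ∉ K → q ∈ CA → q ∉ CB := by
    intro q hq h1 h2
    have h3 := janiszewski hAc hBc (by rw [hAB]; exact isPreconnected_empty)
      (isPreconnected_connectedComponentIn (F := Aᶜ) (x := p))
      (by
        rw [Set.disjoint_left]
        exact fun x hx hxA => connectedComponentIn_subset _ _ hx hxA)
      (mem_connectedComponentIn hpA) h1
      (isPreconnected_connectedComponentIn (F := Bᶜ) (x := p))
      (by
        rw [Set.disjoint_left]
        exact fun x hx hxB => connectedComponentIn_subset _ _ hx hxB)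
      (mem_connectedComponentIn hpB) h2
    rw [hun] at h3
    exact hq (subset_of_frontier isPreconnected_connectedComponentIn hK (mem_connectedComponentIn
      (F := (frontier K)ᶜ) (hKf p hp)) hp (fun x hx => connectedComponentIn_subset _ _ hx) h3)
  obtain ⟨x1, hx1⟩ := hB
  have hO2 : IsOpen (CB ∪ (Aᶜ ∩ (closure CA)ᶜ)) :=
    hCBo.union (hAc.isClosed.isOpen_compl.inter isClosed_closure.isOpen_compl)
  obtain ⟨q, hq, hq1, hq2⟩ := hc CA (CB ∪ (Aᶜ ∩ (closure CA)ᶜ)) hCAo hO2
    (fun q hq => by
      by_cases h1 : q ∈ CA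
      · exact Or.inl h1
      right
      by_cases h2 : q ∈ A
      · exact Or.inl (hAB' h2)
      · exact Or.inr ⟨h2, fun h3 => h1 (closure_component hAc.isClosed h3 h2)⟩)
    ⟨x1, hfK x1 hx1.1, hBA hx1⟩ ⟨x0, hfK x0 hx0.1, Or.inl (hAB' hx0)⟩
  rcases hq2 with h1 | h1
  · exact hdis q hq hq1 h1
  · exact h1.2 (subset_closure hq1)

end Vale.Agent.P032.H653
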