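import Vale.Agent.P032.Six.Geo

/-!
# P032: three disc lemma

`v i` unit vectors with the arguments `t0 < t1 <= t2 <= t3 <= t4 < t5`, `K i = v i + v (i + 2)`.  If the arc from `t0` to
`t5` is longer than `π`, the arc from `t1` to `t4` is shorter than `π`, then the three steps `K 0, K 1, K 2, K 3` are not
all at most one.

* `disc_alg` : the algebraic heart (least circle round an acute triangle).
* `three_disc_le` : weak form, `three_disc` : strict form with an arbitrary vector `W`.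
* `corners` : the form with `K 0, .., K 3`; `corners60` : angles in units of 60 degrees.
-/

noncomputable section

namespace Vale.Agent.P032.H653

open Vale.Agent.P032.Six

/-- a point in three unit discs round the corners of an acute triangle `0, p, q e^(i d)` -/
theorem disc_alg {p q c s x y : ℝ} (hp : 0 < p) (hq : 0 < q) (hc : 0 ≤ c) (hcs : c ^ 2 + s ^ 2 = 1)
    (h1 : q * c ≤ p) (h2 : p * c ≤ q) (e0 : x ^ 2 + y ^ 2 ≤ 1) (eP : (x - p) ^ 2 + y ^ 2 ≤ 1)
    (eQ : (x - q * c) ^ 2 + (y - q * s) ^ 2 ≤ 1) : p ^ 2 + q ^ 2 - 2 * p * q * c ≤ 4 * s ^ 2 := by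
  have hs : s ^ 2 = 1 - c ^ 2 := by linarith
  have hD : 0 ≤ p ^ 2 + q ^ 2 - 2 * p * q * c := by
    nlinarith [sq_nonneg (p - q * c), sq_nonneg (q * s), hs]
  have k0 : 0 ≤ (p ^ 2 + q ^ 2 - 2 * p * q * c) * c := mul_nonneg hD hc
  have kP : 0 ≤ q * (p - q * c) := mul_nonneg hq.le (by linarith)
  have kQ : 0 ≤ p * (q - p * c) := mul_nonneg hp.le (by linarith)
  have m0 := mul_le_mul_of_nonneg_left e0 k0
  have mP := mul_le_mul_of_nonneg_left eP kP
  have mQ := mul_le_mul_of_nonneg_left eQ kQ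
  have key : (p ^ 2 + q ^ 2 - 2 * p * q * c) * c * (x ^ 2 + y ^ 2) + q * (p - q * c) * ((x - p) ^ 2 + y ^ 2)
      + p * (q - p * c) * ((x - q * c) ^ 2 + (y - q * s) ^ 2)
      = 2 * p * q * (s ^ 2 * (x - p / 2) ^ 2 + (s * y - (q - p * c) / 2) ^ 2)
        + p * q * (p ^ 2 + q ^ 2 - 2 * p * q * c) / 2 := by
    linear_combination (-2 * p * q * (x ^ 2 + y ^ 2) + 2 * p ^ 2 * q * x + p * q * (q ^ 2 - p * q * c)
      - p ^ 3 * q / 2) * hcs
  have hpq : 0 < p * q := mul_pos hp hq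
  have hsq : 0 ≤ 2 * p * q * (s ^ 2 * (x - p / 2) ^ 2 + (s * y - (q - p * c) / 2) ^ 2) := by positivity
  have hsum : (p ^ 2 + q ^ 2 - 2 * p * q * c) * c * 1 + q * (p - q * c) * 1 + p * (q - p * c) * 1
      = 2 * (p * q) * s ^ 2 := by rw [hs]; ring
  have : p * q * (p ^ 2 + q ^ 2 - 2 * p * q * c) / 2 ≤ 2 * (p * q) * s ^ 2 := by linarith
  have h4 : p * q * (p ^ 2 + q ^ 2 - 2 * p * q * c) ≤ p * q * (4 * s ^ 2) := by linarith
  exact le_of_mul_le_mul_left h4 hpq

theorem tri_id (a b o : ℝ) : (2 * Real.sin (o - b)) ^ 2 + (2 * Real.sin (o - a)) ^ 2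
      - 2 * (2 * Real.sin (o - b)) * (2 * Real.sin (o - a)) * Real.cos (a + b) - 4 * Real.sin (a + b) ^ 2
      = -16 * (Real.sin a * Real.sin b * Real.cos o * Real.cos (o - (a + b))) := by
  have ha := Real.sin_sq_add_cos_sq a
  have hb := Real.sin_sq_add_cos_sq b
  have ho := Real.sin_sq_add_cos_sq o
  rw [Real.sin_sub, Real.sin_sub, Real.cos_sub, Real.cos_add, Real.sin_add]
  linear_combination (-8 * Real.sin b ^ 2 * Real.cos o ^ 2 + 8 * Real.sin b * Real.cos b * Real.sin o * Real.cos o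
      - 4 * Real.cos b ^ 2 + 4 * Real.cos o ^ 2) * ha
    + (8 * Real.sin a * Real.cos a * Real.sin o * Real.cos o + 8 * Real.cos a ^ 2 * Real.cos o ^ 2
      - 4 * Real.cos a ^ 2 - 4 * Real.cos o ^ 2) * hb
    + (8 * Real.sin a * Real.cos a * Real.sin b * Real.cos b - 8 * Real.cos a ^ 2 * Real.cos b ^ 2
      + 4 * Real.cos a ^ 2 + 4 * Real.cos b ^ 2) * ho

theorem obt_id (a b o : ℝ) : 2 * Real.sin (o - b) - 2 * Real.sin (o - a) * Real.cos (a + b)
      = -2 * Real.cos o * Real.sin b + 2 * Real.cos (o - (a + b)) * Real.sin a := by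
  have ha := Real.sin_sq_add_cos_sq a
  rw [Real.sin_sub, Real.sin_sub, Real.cos_sub, Real.cos_add, Real.sin_add]
  linear_combination (-2 * Real.cos b * Real.sin o) * ha

theorem cis_add' (s t : ℝ) : cis (s + t) = cis s * cis t := by
  unfold cis
  rw [← Complex.exp_add]; push_cast; ring_nf

theorem cis_re' (t : ℝ) : (cis t).re = Real.cos t := by
  unfold cis; rw [Complex.exp_ofReal_mul_I_re]

theorem cis_im' (t : ℝ) : (cis t).im = Real.sin t := by
  unfold cis; rw [Complex.exp_ofReal_mul_I_im]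

/-- a chord of the unit circle -/
theorem chord (m h : ℝ) : cis (m + h) - cis (m - h) = ((2 * Real.sin h : ℝ) : ℂ) * (Complex.I * cis m) := by
  apply Complex.ext
  · simp only [Complex.sub_re, cis_re', Complex.mul_re, Complex.ofReal_re, Complex.I_re, Complex.I_im, cis_im',
      Complex.ofReal_im, Complex.mul_im, Real.cos_add, Real.cos_sub]
    ring
  · simp only [Complex.sub_im, cis_re', Complex.mul_re, Complex.ofReal_re, Complex.I_re, Complex.I_im, cis_im',
      Complex.ofReal_im, Complex.mul_im, Real.sin_add, Real.sin_sub]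
    ring

theorem norm_le_sq {z : ℂ} (h : ‖z‖ ≤ 1) : z.re ^ 2 + z.im ^ 2 ≤ 1 := by
  have h1 : ‖z‖ ^ 2 = z.re ^ 2 + z.im ^ 2 := by rw [Complex.sq_norm, Complex.normSq_apply]; ring
  rw [← h1]
  exact pow_le_one₀ (norm_nonneg z) h

/-- **three disc lemma**, weak form: `a, b` half of the outer arcs, `o` half of the whole arc -/
theorem three_disc_le {t0 t1 t4 t5 : ℝ} {W : ℂ} (h01 : t0 ≤ t1) (h45 : t4 ≤ t5)
    (hab : (t1 - t0) + (t5 - t4) ≤ Real.pi) (hS : Real.pi ≤ t5 - t0) (hM : t4 - t1 ≤ Real.pi) (h14 : t0 < t4)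
    (h15 : t1 < t5) (hM' : t5 - t0 < 2 * Real.pi) (hW : ‖W‖ ≤ 1) (hP : ‖cis t4 - cis t0 - W‖ ≤ 1)
    (hQ : ‖cis t5 - cis t1 - W‖ ≤ 1) :
    Real.sin ((t1 - t0) / 2) * Real.sin ((t5 - t4) / 2) * Real.cos ((t5 - t0) / 2) * Real.cos ((t4 - t1) / 2) = 0 := by
  set a := (t1 - t0) / 2 with ha
  set b := (t5 - t4) / 2 with hb
  set o := (t5 - t0) / 2 with ho
  set m := (t0 + t4) / 2 with hm
  have ha0 : 0 ≤ a := by rw [ha]; linarith
  have hb0 : 0 ≤ b := by rw [hb]; linarith
  have hab' : a + b ≤ Real.pi / 2 := by rw [ha, hb]; linarith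
  have ho1 : Real.pi / 2 ≤ o := by rw [ho]; linarith
  have ho2 : o - (a + b) ≤ Real.pi / 2 := by rw [ho, ha, hb]; linarith
  have hpi := Real.pi_pos
  have hop : o ≤ Real.pi := by linarith
  have e1 : (t4 - t1) / 2 = o - (a + b) := by rw [ho, ha, hb]; ring
  have eP : cis t4 - cis t0 = ((2 * Real.sin (o - b) : ℝ) : ℂ) * (Complex.I * cis m) := by
    have := chord m (o - b)
    have h1 : m + (o - b) = t4 := by rw [hm, ho, hb]; ring
    have h2 : m - (o - b) = t0 := by rw [hm, ho, hb]; ring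
    rwa [h1, h2] at this
  have eQ : cis t5 - cis t1 = ((2 * Real.sin (o - a) : ℝ) : ℂ) * (Complex.I * cis m) * cis (a + b) := by
    have := chord (m + (a + b)) (o - a)
    have h1 : m + (a + b) + (o - a) = t5 := by rw [hm, ho, hb]; ring
    have h2 : m + (a + b) - (o - a) = t1 := by rw [hm, ho, hb, ha]; ring
    rw [h1, h2] at this
    rw [this, cis_add']
    ring
  have hn : ‖Complex.I * cis m‖ = 1 := by rw [norm_mul, Complex.norm_I, norm_cis, one_mul]
  have hne : Complex.I * cis m ≠ 0 := by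
    intro h; rw [h, norm_zero] at hn; exact zero_ne_one hn
  set w := W / (Complex.I * cis m) with hw
  have hWw : W = w * (Complex.I * cis m) := by rw [hw, div_mul_cancel₀ _ hne]
  have f0 : ‖w‖ ≤ 1 := by
    rw [hWw, norm_mul, hn, mul_one] at hW; exact hW
  have fP : ‖w - ((2 * Real.sin (o - b) : ℝ) : ℂ)‖ ≤ 1 := by
    rw [eP, hWw, ← sub_mul, norm_mul, hn, mul_one, norm_sub_rev] at hP; exact hP
  have fQ : ‖w - ((2 * Real.sin (o - a) : ℝ) : ℂ) * cis (a + b)‖ ≤ 1 := by
    have : cis t5 - cis t1 - W = (((2 * Real.sin (o - a) : ℝ) : ℂ) * cis (a + b) - w) * (Complex.I * cis m) := by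
      rw [eQ]
      nth_rewrite 1 [hWw]
      ring
    rw [this, norm_mul, hn, mul_one, norm_sub_rev] at hQ; exact hQ
  have g0 := norm_le_sq f0
  have gP := norm_le_sq fP
  have gQ := norm_le_sq fQ
  simp only [Complex.sub_re, Complex.sub_im, Complex.ofReal_re, Complex.ofReal_im, sub_zero, Complex.mul_re,
    Complex.mul_im, cis_re', cis_im', zero_mul, add_zero] at gP gQ
  have hp : 0 < 2 * Real.sin (o - b) := by
    have : 0 < Real.sin (o - b) := Real.sin_pos_of_pos_of_lt_pi (by rw [ho, hb]; linarith) (by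
      rw [ho, hb]; linarith)
    linarith
  have hq : 0 < 2 * Real.sin (o - a) := by
    have : 0 < Real.sin (o - a) := Real.sin_pos_of_pos_of_lt_pi (by rw [ho, ha]; linarith) (by
      rw [ho, ha]; linarith)
    linarith
  have hsa : 0 ≤ Real.sin a := Real.sin_nonneg_of_nonneg_of_le_pi ha0 (by linarith)
  have hsb : 0 ≤ Real.sin b := Real.sin_nonneg_of_nonneg_of_le_pi hb0 (by linarith)
  have hc : 0 ≤ Real.cos (a + b) := Real.cos_nonneg_of_neg_pi_div_two_le_of_le (by linarith) hab'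
  have hco : Real.cos o ≤ 0 := Real.cos_nonpos_of_pi_div_two_le_of_le ho1 (by linarith)
  have hcm : 0 ≤ Real.cos (o - (a + b)) := Real.cos_nonneg_of_neg_pi_div_two_le_of_le (by linarith) ho2
  have k1 := obt_id a b o
  have k2 := obt_id b a o
  rw [add_comm b a] at k2
  have l1 : 2 * Real.sin (o - a) * Real.cos (a + b) ≤ 2 * Real.sin (o - b) := by
    have h1 : 0 ≤ -(2 * Real.cos o * Real.sin b) := by
      have := mul_nonneg (neg_nonneg.mpr hco) hsb; nlinarith
    have h2 : 0 ≤ 2 * Real.cos (o - (a + b)) * Real.sin a := by positivity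
    linarith
  have l2 : 2 * Real.sin (o - b) * Real.cos (a + b) ≤ 2 * Real.sin (o - a) := by
    have h1 : 0 ≤ -(2 * Real.cos o * Real.sin a) := by
      have := mul_nonneg (neg_nonneg.mpr hco) hsa; nlinarith
    have h2 : 0 ≤ 2 * Real.cos (o - (a + b)) * Real.sin b := by positivity
    linarith
  have key := disc_alg hp hq hc (by rw [add_comm]; exact Real.sin_sq_add_cos_sq (a + b)) l1 l2 g0 gP gQ
  have id := tri_id a b o
  rw [e1]
  have hle : 0 ≤ Real.sin a * Real.sin b * Real.cos o * Real.cos (o - (a + b)) := by linarith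
  have hge : Real.sin a * Real.sin b * Real.cos o * Real.cos (o - (a + b)) ≤ 0 := by
    have h1 : 0 ≤ Real.sin a * Real.sin b := mul_nonneg hsa hsb
    have h2 : 0 ≤ Real.sin a * Real.sin b * (-Real.cos o) * Real.cos (o - (a + b)) :=
      mul_nonneg (mul_nonneg h1 (by linarith)) hcm
    linarith [h2]
  exact le_antisymm hge hle

/-- **three disc lemma** -/
theorem three_disc {t0 t1 t4 t5 : ℝ} {W : ℂ} (h01 : t0 < t1) (h45 : t4 < t5)
    (hab : (t1 - t0) + (t5 - t4) ≤ Real.pi) (hS : Real.pi < t5 - t0) (hM : t4 - t1 < Real.pi)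
    (hW : ‖W‖ ≤ 1) (hP : ‖cis t4 - cis t0 - W‖ ≤ 1) (hQ : ‖cis t5 - cis t1 - W‖ ≤ 1) : False := by
  have hpi := Real.pi_pos
  have h := three_disc_le h01.le h45.le hab hS.le hM.le (by linarith) (by linarith) (by linarith) hW hP hQ
  have h1 : 0 < Real.sin ((t1 - t0) / 2) := Real.sin_pos_of_pos_of_lt_pi (by linarith) (by linarith)
  have h2 : 0 < Real.sin ((t5 - t4) / 2) := Real.sin_pos_of_pos_of_lt_pi (by linarith) (by linarith)
  have h3 : Real.cos ((t5 - t0) / 2) < 0 :=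
    Real.cos_neg_of_pi_div_two_lt_of_lt (by linarith) (by linarith)
  have h4 : 0 < Real.cos ((t4 - t1) / 2) := Real.cos_pos_of_mem_Ioo ⟨by linarith, by linarith⟩
  have h5 : Real.sin ((t1 - t0) / 2) * Real.sin ((t5 - t4) / 2) * Real.cos ((t5 - t0) / 2)
      * Real.cos ((t4 - t1) / 2) < 0 :=
    mul_neg_of_neg_of_pos (mul_neg_of_pos_of_neg (mul_pos h1 h2) h3) h4
  linarith

/-- three consecutive steps of the corners `v i + v (i + 2)` -/
theorem corners {t0 t1 t2 t3 t4 t5 : ℝ} (h01 : t0 < t1) (h45 : t4 < t5)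
    (hab : (t1 - t0) + (t5 - t4) ≤ Real.pi) (hS : Real.pi < t5 - t0) (hM : t4 - t1 < Real.pi)
    (k0 : dist (cis t0 + cis t2) (cis t1 + cis t3) ≤ 1) (k1 : dist (cis t1 + cis t3) (cis t2 + cis t4) ≤ 1)
    (k2 : dist (cis t2 + cis t4) (cis t3 + cis t5) ≤ 1) : False := by
  refine three_disc (W := cis t2 + cis t4 - (cis t1 + cis t3)) h01 h45 hab hS hM ?_ ?_ ?_
  · rw [dist_comm, dist_eq_norm] at k1; exact k1
  · rw [dist_comm, dist_eq_norm] at k0
    have : cis t4 - cis t0 - (cis t2 + cis t4 - (cis t1 + cis t3)) = cis t1 + cis t3 - (cis t0 + cis t2) := by ring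
    rw [this]; exact k0
  · rw [dist_comm, dist_eq_norm] at k2
    have : cis t5 - cis t1 - (cis t2 + cis t4 - (cis t1 + cis t3)) = cis t3 + cis t5 - (cis t2 + cis t4) := by ring
    rw [this]; exact k2

/-- the same, angles in units of 60 degrees (`cis (x * (π / 3))` is `H913.dir x`) -/
theorem corners60 {x0 x1 x2 x3 x4 x5 : ℝ} (h01 : x0 < x1) (h45 : x4 < x5)
    (hab : (x1 - x0) + (x5 - x4) ≤ 3) (hS : 3 < x5 - x0) (hM : x4 - x1 < 3)
    (k0 : dist (cis (x0 * (Real.pi / 3)) + cis (x2 * (Real.pi / 3)))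
      (cis (x1 * (Real.pi / 3)) + cis (x3 * (Real.pi / 3))) ≤ 1)
    (k1 : dist (cis (x1 * (Real.pi / 3)) + cis (x3 * (Real.pi / 3)))
      (cis (x2 * (Real.pi / 3)) + cis (x4 * (Real.pi / 3))) ≤ 1)
    (k2 : dist (cis (x2 * (Real.pi / 3)) + cis (x4 * (Real.pi / 3)))
      (cis (x3 * (Real.pi / 3)) + cis (x5 * (Real.pi / 3))) ≤ 1) : False := by
  have hpi := Real.pi_pos
  exact corners (by nlinarith) (by nlinarith) (by nlinarith) (by nlinarith) (by nlinarith) k0 k1 k2

end Vale.Agent.P032.H653
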