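import Vale.Agent.P032.H653.Jor
import Vale.Agent.P032.S5.H483.Irr

/-!
# P032: tiles have no holes, and a closed set of fully owned walls is everything

Frame `Irr U T` only, any number of colours, no local finiteness, tiles of different colours may overlap.

* `near_or_far` : a component of `U i` is inside or outside the unit circle of a point of `closure (U i)`.
* `no_holes` : the complement of a component of `U i` is connected.
* `frontier_tile` : the frontier of a component of `U i` is connected.
* `top` : let `N` be closed and nonempty, `N ⊆ XX U`, and suppose that for `w ∈ N` and `i ∈ T w` the set `U i` near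
  `w` is connected and its frontier near `w` consists of points of `N` with the colour `i`. Then `XX U ⊆ N`.
-/

open Set Filter Topology Metric

noncomputable section

namespace Vale.Agent.P032.H653

open Vale.Agent.P032.Six

variable {k : ℕ} {U : Fin k → Set ℂ} {T : ℂ → Set (Fin k)}

/-- a connected subset of `U i` is inside or outside the unit circle of a point of the closure -/
theorem near_or_far (h : Irr U T) {i : Fin k} {K : Set ℂ} (hK : IsPreconnected K) (hKU : K ⊆ U i) {y : ℂ}
    (hy : y ∈ closure (U i)) : (∀ q ∈ K, dist q y < 1) ∨ ∀ q ∈ K, 1 < dist q y := by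
  by_contra hcon
  push Not at hcon
  obtain ⟨⟨a, ha, ha1⟩, b, hb, hb1⟩ := hcon
  have hc : ContinuousOn (fun q : ℂ => dist q y) K := by fun_prop
  obtain ⟨q, hq, hq1⟩ := hK.intermediate_value hb ha hc ⟨hb1, ha1⟩
  exact h.mx.free i q (hKU hq) y hy hq1

/-- **tiles have no holes** -/
theorem no_holes (h : Irr U T) (i : Fin k) (p : ℂ) : IsPreconnected (connectedComponentIn (U i) p)ᶜ := by
  by_cases hp : p ∈ U i
  swap
  · rw [connectedComponentIn_eq_empty hp, compl_empty]
    exact isPreconnected_univ
  set K := connectedComponentIn (U i) p with hKdef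
  have hKo : IsOpen K := (h.mx.isOpen i).connectedComponentIn
  have hKU : K ⊆ U i := connectedComponentIn_subset _ _
  have hKc : IsPreconnected K := isPreconnected_connectedComponentIn
  have hpK : p ∈ K := mem_connectedComponentIn hp
  have hKp : ∀ q ∈ K, dist q p < 1 := by
    rcases near_or_far h hKc hKU (subset_closure hp) with h1 | h1
    · exact h1
    · have := h1 p hpK
      rw [dist_self] at this
      linarith
  have hE : IsPreconnected (closedBall p 1)ᶜ := Vale.Agent.P153.R2.R1.preconnected_compl_closedBall p 1
  have hEK : (closedBall p 1)ᶜ ⊆ Kᶜ := by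
    intro q hq hqK
    exact hq (hKp q hqK).le
  -- every component of the complement is unbounded
  have key : ∀ x ∉ K, (connectedComponentIn Kᶜ x ∩ (closedBall p 1)ᶜ).Nonempty := by
    intro x hx
    by_contra hcon
    rw [not_nonempty_iff_eq_empty] at hcon
    set H := connectedComponentIn Kᶜ x with hHdef
    have hHb : ∀ q ∈ H, dist q p ≤ 1 := by
      intro q hq
      by_contra hlt
      have : q ∈ H ∩ (closedBall p 1)ᶜ := ⟨hq, hlt⟩
      rw [hcon] at this
      exact this
    have hxH : x ∈ H := mem_connectedComponentIn hx
    have hHc : IsPreconnected H := isPreconnected_connectedComponentIn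
    have hHU : H ⊆ U i := by
      intro x' hx'
      refine h.max i x' fun y hy hxy => ?_
      have hHeq : connectedComponentIn Kᶜ x' = H := (connectedComponentIn_eq hx').symm
      rcases near_or_far h hKc hKU hy with h1 | h1
      · -- near
        have hS : (ball y 1)ᶜ ⊆ H := by
          rw [← hHeq]
          refine (preconnected_compl_ball y one_pos).subset_connectedComponentIn ?_ ?_
          · rw [mem_compl_iff, mem_ball, hxy]; exact lt_irrefl 1
          · intro q hq hqK
            exact hq (h1 q hqK)
        have h2 := h1 p hpK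
        have h3 : dist (p + 3) p = 3 := by
          rw [dist_eq_norm]; simp
        have h4 : p + 3 ∈ H := by
          apply hS
          rw [mem_compl_iff, mem_ball, not_lt]
          have := dist_triangle (p + 3) y p
          rw [dist_comm y p] at this
          linarith
        have := hHb _ h4
        linarith
      · -- far
        have hS : closedBall y 1 ⊆ H := by
          rw [← hHeq]
          refine (convex_closedBall y 1).isPreconnected.subset_connectedComponentIn ?_ ?_
          · rw [mem_closedBall, hxy]
          · intro q hq hqK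
            exact absurd (h1 q hqK) (not_lt.2 hq)
        have h2 := h1 p hpK
        have h0 : 0 < ‖y - p‖ := by
          rw [dist_comm, dist_eq_norm] at h2
          linarith
        have hne : (‖y - p‖ : ℂ) ≠ 0 := by exact_mod_cast h0.ne'
        have h4 : y + (y - p) / ‖y - p‖ ∈ H := by
          apply hS
          rw [mem_closedBall, dist_eq_norm, add_sub_cancel_left, norm_div, Complex.norm_real, norm_norm,
            div_self h0.ne']
        have h5 := hHb _ h4
        have h6 : y + (y - p) / ‖y - p‖ - p = ((1 + 1 / ‖y - p‖ : ℝ) : ℂ) * (y - p) := by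
          push_cast
          field_simp
          ring
        rw [dist_eq_norm, h6, norm_mul, Complex.norm_real, Real.norm_eq_abs, abs_of_pos (by positivity)] at h5
        have h7 : (1 + 1 / ‖y - p‖) * ‖y - p‖ = ‖y - p‖ + 1 := by
          field_simp
        rw [h7] at h5
        linarith
    -- `H` is the component of `U i`
    have hHK' : H ⊆ connectedComponentIn (U i) x := hHc.subset_connectedComponentIn hxH hHU
    have hxU : x ∈ U i := hHU hxH
    have hK'H : connectedComponentIn (U i) x ⊆ H := by
      refine isPreconnected_connectedComponentIn.subset_connectedComponentIn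
        (mem_connectedComponentIn hxU) ?_
      intro q hq hqK
      have e1 := connectedComponentIn_eq hq
      have e2 := connectedComponentIn_eq hqK
      exact hx (by rw [hKdef, e2, ← e1]; exact mem_connectedComponentIn hxU)
    have hHeq : H = connectedComponentIn (U i) x := Subset.antisymm hHK' hK'H
    have hHo : IsOpen H := by rw [hHeq]; exact (h.mx.isOpen i).connectedComponentIn
    have hHcl : IsClosed H := by
      rw [← closure_subset_iff_isClosed]
      refine (hHc.closure).subset_connectedComponentIn (subset_closure hxH) ?_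
      exact closure_minimal (connectedComponentIn_subset _ _) hKo.isClosed_compl
    rcases isClopen_iff.1 ⟨hHcl, hHo⟩ with h1 | h1
    · rw [h1] at hxH; exact hxH
    · have : p ∈ H := by rw [h1]; trivial
      exact connectedComponentIn_subset _ _ this hpK
  -- the base point
  have h3 : p + 3 ∈ (closedBall p 1)ᶜ := by
    rw [mem_compl_iff, mem_closedBall, dist_eq_norm]
    simp
  refine isPreconnected_of_forall (p + 3) fun x hx => ?_
  obtain ⟨q, hq, hqE⟩ := key x hx
  refine ⟨connectedComponentIn Kᶜ x, connectedComponentIn_subset _ _, ?_, mem_connectedComponentIn hx,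
    isPreconnected_connectedComponentIn⟩
  have h4 := hE.subset_connectedComponentIn hqE hEK
  rw [connectedComponentIn_eq hq]
  exact h4 h3

/-- the frontier of a tile is connected -/
theorem frontier_tile (h : Irr U T) (i : Fin k) (p : ℂ) :
    IsPreconnected (frontier (connectedComponentIn (U i) p)) := by
  by_cases hp : p ∈ U i
  swap
  · rw [connectedComponentIn_eq_empty hp, frontier_empty]
    exact isPreconnected_empty
  refine preconnected_frontier_of (h.mx.isOpen i).connectedComponentIn isPreconnected_connectedComponentIn ?_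
    (no_holes h i p)
  refine (isBounded_closedBall (x := p) (r := 1)).subset fun q hq => ?_
  rcases near_or_far h isPreconnected_connectedComponentIn (connectedComponentIn_subset (U i) p)
    (subset_closure hp) with h1 | h1
  · exact (h1 q hq).le
  · have := h1 p (mem_connectedComponentIn hp)
    rw [dist_self] at this
    linarith

/-- **LEMMA TOP** -/
theorem top (h : Irr U T) {N : Set ℂ} (hNc : IsClosed N) (hNe : N.Nonempty) (hNX : N ⊆ XX U)
    (hN1 : ∀ w ∈ N, ∀ i ∈ T w, ∃ r > 0, IsPreconnected (U i ∩ ball w r) ∧
      ∀ x ∈ frontier (U i), x ∈ ball w r → x ∈ N ∧ i ∈ T x) : XX U ⊆ N := by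
  intro z hz
  by_contra hzN
  set R := connectedComponentIn Nᶜ z with hRdef
  have hRo : IsOpen R := hNc.isOpen_compl.connectedComponentIn
  have hzR : z ∈ R := mem_connectedComponentIn hzN
  have hRc : IsPreconnected R := isPreconnected_connectedComponentIn
  have hRN : R ⊆ Nᶜ := connectedComponentIn_subset _ _
  -- a frontier point
  obtain ⟨w, hw⟩ : (frontier R).Nonempty := by
    by_contra hcon
    rw [not_nonempty_iff_eq_empty, ← isClopen_iff_frontier_eq_empty, isClopen_iff] at hcon
    rcases hcon with h1 | h1
    · rw [h1] at hzR; exact hzR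
    · obtain ⟨x, hx⟩ := hNe
      have : x ∈ R := by rw [h1]; trivial
      exact hRN this hx
  have hwR : w ∉ R := fun h1 => hw.2 (by rwa [hRo.interior_eq])
  have hwN : w ∈ N := by
    by_contra h1
    exact hwR (Vale.Agent.P153.R2.R1.closure_component hNc hw.1 h1)
  -- a colour
  choose! r hr hr1 hr2 using hN1 w hwN
  have hev : ∀ᶠ x in 𝓝 w, T x ⊆ T w ∧ ∀ i ∈ T w, x ∈ ball w (r i) := by
    refine (h.nhd w).and ?_
    rw [eventually_all_finite (Set.toFinite (T w))]
    intro i hi
    exact ball_mem_nhds w (hr i hi)
  obtain ⟨V, hV, hVo, hwV⟩ := _root_.eventually_nhds_iff.1 hev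
  obtain ⟨x, hxV, hxR⟩ := _root_.mem_closure_iff.1 hw.1 V hVo hwV
  obtain ⟨i, hi⟩ := h.ne x
  have hiw : i ∈ T w := (hV x hxV).1 hi
  obtain ⟨v, hv, hvT⟩ := ((h.pure x i hi).and_eventually ((hVo.inter hRo).mem_nhds ⟨hxV, hxR⟩)).exists
  have hvU : v ∈ U i := h.mem_of_single (by rw [hv])
  have hvb : v ∈ ball w (r i) := (hV v hvT.1).2 i hiw
  -- the tile
  set K := connectedComponentIn (U i) v with hKdef
  have hKo : IsOpen K := (h.mx.isOpen i).connectedComponentIn
  have hKU : K ⊆ U i := connectedComponentIn_subset _ _
  have hKc : IsPreconnected K := isPreconnected_connectedComponentIn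
  have hvK : v ∈ K := mem_connectedComponentIn hvU
  have hKN : K ⊆ Nᶜ := fun q hq hqN => hNX hqN i (hKU hq)
  have hKR : K ⊆ R := by
    rw [hRdef, connectedComponentIn_eq hvT.2]
    exact hKc.subset_connectedComponentIn hvK hKN
  have hbK : U i ∩ ball w (r i) ⊆ K :=
    (hr1 i hiw).subset_connectedComponentIn ⟨hvU, hvb⟩ inter_subset_left
  have hwK : w ∈ frontier K := by
    refine ⟨?_, fun h1 => hwR (hKR (interior_subset h1))⟩
    rw [_root_.mem_closure_iff]
    intro O hO hwO
    have h2 : w ∈ closure (U i) := h.sub w hiw
    obtain ⟨q, hq, hqU⟩ := _root_.mem_closure_iff.1 h2 (O ∩ ball w (r i)) (hO.inter isOpen_ball)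
      ⟨hwO, mem_ball_self (hr i hiw)⟩
    exact ⟨q, hq.1, hbK ⟨hqU, hq.2⟩⟩
  -- the frontier of `K` lies in the frontier of `U i`
  have hfr : frontier K ⊆ frontier (U i) := by
    intro q hq
    refine ⟨closure_mono hKU hq.1, fun h1 => ?_⟩
    rw [(h.mx.isOpen i).interior_eq] at h1
    have h2 : q ∈ K := by
      have := Vale.Agent.P153.R2.R1.closure_component (K := (U i)ᶜ) (h.mx.isOpen i).isClosed_compl
        (p := v) (x := q) (by rw [compl_compl]; exact hq.1) (by simpa using h1)
      rwa [compl_compl] at this
    exact hq.2 (by rwa [hKo.interior_eq])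
  -- the frontier of `K` lies in `N`
  have hFN : frontier K ⊆ N ∩ {x | i ∈ T x} := by
    by_contra hcon
    obtain ⟨q, hq, hqN⟩ := not_subset.1 hcon
    choose! ρ hρ hρ1 hρ2 using hN1
    obtain ⟨y, hy, hy1, hy2⟩ := (frontier_tile h i v) (⋃ y ∈ N ∩ {x | i ∈ T x}, ball y (ρ y i))
      (N ∩ {x | i ∈ T x})ᶜ (isOpen_biUnion fun _ _ => isOpen_ball)
      (hNc.inter (h.closed i)).isOpen_compl
      (fun q hq => by
        by_cases h1 : q ∈ N ∩ {x | i ∈ T x}
        · left
          exact mem_biUnion h1 (mem_ball_self (hρ q h1.1 i h1.2))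
        · exact Or.inr h1)
      ⟨w, hwK, mem_biUnion (show w ∈ N ∩ {x | i ∈ T x} from ⟨hwN, hiw⟩)
        (mem_ball_self (hρ w hwN i hiw))⟩
      ⟨q, hq, hqN⟩
    obtain ⟨y', hy', hyy⟩ := mem_iUnion₂.1 hy1
    exact hy2 (hρ2 y' hy'.1 i hy'.2 y (hfr hy) hyy)
  have hRK : R ⊆ K := subset_of_frontier hRc hKo hvT.2 hvK fun x hx h1 => hRN hx (hFN h1).1
  exact hz i (hKU (hRK hzR))

end Vale.Agent.P032.H653
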